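import Mathlib

/-!
# P052, TASK DIM: a scaled symmetric idempotent matrix of trace `c * d` is a Gram matrix in `ℝ^d`
-/

namespace Vale.Agent.H57

open Matrix

theorem exists_gram_of_sq_eq_smul {n d : ℕ} (M : Matrix (Fin n) (Fin n) ℝ) (c : ℝ) (hc : 0 < c)
    (hsymm : M.transpose = M) (hsq : M * M = c • M) (htr : M.trace = c * (d : ℝ)) :
    ∃ y : Fin n → EuclideanSpace ℝ (Fin d), ∀ u v, inner ℝ (y u) (y v) = M u v := by
  have hc0 : c ≠ 0 := hc.ne'
  have hPidem : (c⁻¹ • M) * (c⁻¹ • M) = c⁻¹ • M := by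
    rw [Matrix.smul_mul, Matrix.mul_smul, hsq, smul_smul, smul_smul]
    congr 1
    field_simp
  have hPtr : (c⁻¹ • M).trace = d := by
    rw [Matrix.trace_smul, htr, smul_eq_mul]
    field_simp
  let L : EuclideanSpace ℝ (Fin n) →ₗ[ℝ] EuclideanSpace ℝ (Fin n) :=
    Matrix.toLpLin 2 2 (c⁻¹ • M)
  have hLidem : IsIdempotentElem L := by
    show Matrix.toLpLin 2 2 (c⁻¹ • M) ∘ₗ Matrix.toLpLin 2 2 (c⁻¹ • M) =
      Matrix.toLpLin 2 2 (c⁻¹ • M)
    rw [← Matrix.toLpLin_mul_same, hPidem]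
  have hproj : LinearMap.IsProj (LinearMap.range L) L :=
    LinearMap.IsIdempotentElem.isProj_range L hLidem
  have htrL : LinearMap.trace ℝ _ L = (Module.finrank ℝ (LinearMap.range L) : ℝ) := hproj.trace
  have htrL2 : LinearMap.trace ℝ _ L = (c⁻¹ • M).trace := by
    show LinearMap.trace ℝ _ (Matrix.toLpLin 2 2 (c⁻¹ • M)) = _
    rw [Matrix.toLpLin_eq_toLin, LinearMap.trace_eq_matrix_trace ℝ (PiLp.basisFun 2 ℝ (Fin n)),
      LinearMap.toMatrix_toLin]
  have hfin : Module.finrank ℝ (LinearMap.range L) = d := by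
    have h1 : (Module.finrank ℝ (LinearMap.range L) : ℝ) = d := by rw [← htrL, htrL2, hPtr]
    exact_mod_cast h1
  let e : (LinearMap.range L) ≃ₗᵢ[ℝ] EuclideanSpace ℝ (Fin d) :=
    ((stdOrthonormalBasis ℝ (LinearMap.range L)).reindex (finCongr hfin)).repr
  let w : Fin n → EuclideanSpace ℝ (Fin n) :=
    fun u => Real.sqrt c • EuclideanSpace.single u (1 : ℝ)
  refine ⟨fun u => e ⟨L (w u), LinearMap.mem_range_self L (w u)⟩, fun u v => ?_⟩
  rw [LinearIsometryEquiv.inner_map_map, Submodule.coe_inner]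
  have hLw : ∀ u k, (L (w u)) k = Real.sqrt c * (c⁻¹ * M k u) := by
    intro u k
    simp [L, w, Matrix.toLpLin_apply, Matrix.mulVec_single]
  have hMuk : ∀ k u, M k u = M u k := by
    intro k u
    have h1 := congrFun (congrFun hsymm u) k
    simpa [Matrix.transpose_apply] using h1
  have hsq' : ∀ u v, ∑ k, M u k * M k v = c * M u v := by
    intro u v
    have h1 := congrFun (congrFun hsq u) v
    simpa [Matrix.mul_apply, Matrix.smul_apply] using h1
  have hsqrt : Real.sqrt c * Real.sqrt c = c := Real.mul_self_sqrt hc.le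
  simp only [PiLp.inner_apply, hLw]
  have hterm : ∀ k, inner ℝ (Real.sqrt c * (c⁻¹ * M k u)) (Real.sqrt c * (c⁻¹ * M k v)) =
      c⁻¹ * (M u k * M k v) := by
    intro k
    rw [hMuk k u]
    have h1 : inner ℝ (Real.sqrt c * (c⁻¹ * M u k)) (Real.sqrt c * (c⁻¹ * M k v)) =
        (Real.sqrt c * (c⁻¹ * M u k)) * (Real.sqrt c * (c⁻¹ * M k v)) := by
      simp [mul_comm]
    rw [h1]
    have h2 : (Real.sqrt c * (c⁻¹ * M u k)) * (Real.sqrt c * (c⁻¹ * M k v)) =
        (Real.sqrt c * Real.sqrt c) * (c⁻¹ * c⁻¹) * (M u k * M k v) := by ring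
    rw [h2, hsqrt]
    field_simp
  rw [Finset.sum_congr rfl (fun k _ => hterm k), ← Finset.mul_sum, hsq']
  field_simp

end Vale.Agent.H57
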