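import Mathlib

/-!
# A verified bound for pair-bin gadgets

`bins` is a list of integer capacities, `objs` a list of integer object values.
A family of triples `(b, x, y)` is valid if the `b` form a sub-multiset of `bins`,
the `x, y` together form a sub-multiset of `objs`, and `x + y ≤ b` for every triple.
`pairCheck bins objs k = true` is a computable certificate that no valid family has more than
`k` triples.  The check uses two exchange arguments (the `k + 1` largest bins may be assumed to
be the used ones, filled with the `2 k + 2` smallest objects) and then an exhaustive search in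
which the smallest remaining bin has to receive a pair.
-/

namespace Vale.Agent.H57.PairBound

open Multiset

/-- Validity of a family of `(bin, object, object)` value triples. -/
def Valid (bins objs : Multiset ℤ) (F : Multiset (ℤ × ℤ × ℤ)) : Prop :=
  F.map (fun t => t.1) ≤ bins ∧
  F.map (fun t => t.2.1) + F.map (fun t => t.2.2) ≤ objs ∧
  ∀ t ∈ F, t.2.1 + t.2.2 ≤ t.1

theorem Valid.mono {bins objs : Multiset ℤ} {F F' : Multiset (ℤ × ℤ × ℤ)}
    (h : Valid bins objs F) (hle : F' ≤ F) : Valid bins objs F' :=
  ⟨(map_le_map hle).trans h.1, (add_le_add (map_le_map hle) (map_le_map hle)).trans h.2.1,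
    fun t ht => h.2.2 t (mem_of_le hle ht)⟩

theorem Valid.swap {bins objs : Multiset ℤ} {b x y : ℤ} {F : Multiset (ℤ × ℤ × ℤ)}
    (h : Valid bins objs ((b, x, y) ::ₘ F)) : Valid bins objs ((b, y, x) ::ₘ F) := by
  obtain ⟨h1, h2, h3⟩ := h
  refine ⟨by simpa using h1, ?_, ?_⟩
  · have e : map (fun t : ℤ × ℤ × ℤ => t.2.1) ((b, y, x) ::ₘ F)
        + map (fun t : ℤ × ℤ × ℤ => t.2.2) ((b, y, x) ::ₘ F)
        = map (fun t : ℤ × ℤ × ℤ => t.2.1) ((b, x, y) ::ₘ F)
        + map (fun t : ℤ × ℤ × ℤ => t.2.2) ((b, x, y) ::ₘ F) := by
      simp only [map_cons, cons_add, add_cons]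
      exact cons_swap _ _ _
    rw [e]; exact h2
  · intro t ht
    rcases mem_cons.1 ht with rfl | ht
    · have := h3 (b, x, y) (mem_cons_self _ _)
      simp only at this ⊢
      omega
    · exact h3 t (mem_cons_of_mem ht)

theorem exists_cons_le {R S : Multiset ℤ} (h : R ≤ S) (hc : card R < card S) :
    ∃ a, a ::ₘ R ≤ S := by
  have hlt : R < S := lt_of_le_of_ne h (fun e => by rw [e] at hc; exact lt_irrefl _ hc)
  exact lt_iff_cons_le.1 hlt

/-- Exchange step for objects: a largest object can be discarded. -/
theorem exch_obj {bins objs : Multiset ℤ} {o : ℤ} {F : Multiset (ℤ × ℤ × ℤ)}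
    (hmax : ∀ x ∈ objs, x ≤ o) (hF : Valid bins (o ::ₘ objs) F)
    (hcard : 2 * card F ≤ card objs) :
    ∃ F', Valid bins objs F' ∧ card F' = card F := by
  by_cases hU : F.map (fun t => t.2.1) + F.map (fun t => t.2.2) ≤ objs
  · exact ⟨F, ⟨hF.1, hU, hF.2.2⟩, rfl⟩
  have ho : o ∈ F.map (fun t => t.2.1) + F.map (fun t => t.2.2) := by
    by_contra hne
    exact hU ((le_cons_of_notMem hne).1 hF.2.1)
  -- reduce to the case where `o` is the first object of some triple
  have key : ∀ (b y : ℤ) (F₁ : Multiset (ℤ × ℤ × ℤ)), card F₁ + 1 = card F →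
      Valid bins (o ::ₘ objs) ((b, o, y) ::ₘ F₁) →
      ∃ F', Valid bins objs F' ∧ card F' = card F := by
    intro b y F₁ hc hV
    obtain ⟨h1, h2, h3⟩ := hV
    have h2' : o ::ₘ (y ::ₘ (F₁.map (fun t => t.2.1) + F₁.map (fun t => t.2.2))) ≤ o ::ₘ objs := by
      have e : map (fun t : ℤ × ℤ × ℤ => t.2.1) ((b, o, y) ::ₘ F₁)
          + map (fun t : ℤ × ℤ × ℤ => t.2.2) ((b, o, y) ::ₘ F₁)
          = o ::ₘ (y ::ₘ (F₁.map (fun t => t.2.1) + F₁.map (fun t => t.2.2))) := by
        simp only [map_cons, cons_add, add_cons]
        exact cons_swap _ _ _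
      rw [← e]; exact h2
    have hR := (cons_le_cons_iff o).1 h2'
    have hcR : card (y ::ₘ (F₁.map (fun t => t.2.1) + F₁.map (fun t => t.2.2))) < card objs := by
      simp only [card_cons, card_add, card_map]
      omega
    obtain ⟨a, ha⟩ := exists_cons_le hR hcR
    have ham : a ∈ objs := mem_of_le ha (mem_cons_self _ _)
    refine ⟨(b, a, y) ::ₘ F₁, ⟨by simpa using h1, ?_, ?_⟩, by simpa using hc⟩
    · have e : map (fun t : ℤ × ℤ × ℤ => t.2.1) ((b, a, y) ::ₘ F₁)
          + map (fun t : ℤ × ℤ × ℤ => t.2.2) ((b, a, y) ::ₘ F₁)
          = a ::ₘ (y ::ₘ (F₁.map (fun t => t.2.1) + F₁.map (fun t => t.2.2))) := by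
        simp only [map_cons, cons_add, add_cons]
        exact cons_swap _ _ _
      rw [e]; exact ha
    · intro t ht
      rcases mem_cons.1 ht with rfl | ht
      · have := h3 (b, o, y) (mem_cons_self _ _)
        have := hmax a ham
        simp only at *
        omega
      · exact h3 t (mem_cons_of_mem ht)
  rcases mem_add.1 ho with h | h
  · obtain ⟨t, ht, hto⟩ := mem_map.1 h
    obtain ⟨F₁, rfl⟩ := exists_cons_of_mem ht
    obtain ⟨b, x, y⟩ := t
    simp only at hto
    subst hto
    exact key b y F₁ (by simp) hF
  · obtain ⟨t, ht, hto⟩ := mem_map.1 h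
    obtain ⟨F₁, rfl⟩ := exists_cons_of_mem ht
    obtain ⟨b, x, y⟩ := t
    simp only at hto
    subst hto
    exact key b x F₁ (by simp) hF.swap

/-- Exchange step for bins: a smallest bin can be discarded. -/
theorem exch_bin {bins objs : Multiset ℤ} {b : ℤ} {F : Multiset (ℤ × ℤ × ℤ)}
    (hmin : ∀ x ∈ bins, b ≤ x) (hF : Valid (b ::ₘ bins) objs F)
    (hcard : card F ≤ card bins) :
    ∃ F', Valid bins objs F' ∧ card F' = card F := by
  by_cases hU : F.map (fun t => t.1) ≤ bins
  · exact ⟨F, ⟨hU, hF.2.1, hF.2.2⟩, rfl⟩
  have hb : b ∈ F.map (fun t => t.1) := by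
    by_contra hne
    exact hU ((le_cons_of_notMem hne).1 hF.1)
  obtain ⟨t, ht, htb⟩ := mem_map.1 hb
  obtain ⟨F₁, rfl⟩ := exists_cons_of_mem ht
  obtain ⟨b', x, y⟩ := t
  simp only at htb
  subst htb
  obtain ⟨h1, h2, h3⟩ := hF
  have hR : F₁.map (fun t => t.1) ≤ bins := by
    have : b' ::ₘ F₁.map (fun t => t.1) ≤ b' ::ₘ bins := by simpa using h1
    exact (cons_le_cons_iff b').1 this
  have hcR : card (F₁.map (fun t => t.1)) < card bins := by
    simp only [card_cons, card_map] at hcard ⊢
    omega
  obtain ⟨a, ha⟩ := exists_cons_le hR hcR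
  have ham : a ∈ bins := mem_of_le ha (mem_cons_self _ _)
  refine ⟨(a, x, y) ::ₘ F₁, ⟨by simpa using ha, ?_, ?_⟩, by simp⟩
  · have e : map (fun t : ℤ × ℤ × ℤ => t.2.1) ((a, x, y) ::ₘ F₁)
        + map (fun t : ℤ × ℤ × ℤ => t.2.2) ((a, x, y) ::ₘ F₁)
        = map (fun t : ℤ × ℤ × ℤ => t.2.1) ((b', x, y) ::ₘ F₁)
        + map (fun t : ℤ × ℤ × ℤ => t.2.2) ((b', x, y) ::ₘ F₁) := by
      simp only [map_cons]
    rw [e]; exact h2
  · intro t ht
    rcases mem_cons.1 ht with rfl | ht
    · have := h3 (b', x, y) (mem_cons_self _ _)
      have := hmin a ham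
      simp only at *
      omega
    · exact h3 t (mem_cons_of_mem ht)

/-- Iterated object exchange on a list sorted in decreasing order. -/
theorem trim_obj (bins : Multiset ℤ) (k : ℕ) : ∀ L : List ℤ, L.Pairwise (· ≥ ·) →
    (∃ F, Valid bins (L : Multiset ℤ) F ∧ card F = k) →
    ∃ F, Valid bins ((L.drop (L.length - 2 * k) : List ℤ) : Multiset ℤ) F ∧ card F = k
  | [], _, h => by simpa using h
  | o :: rest, hp, h => by
      by_cases hk : 2 * k ≤ rest.length
      · have e : (o :: rest).length - 2 * k = (rest.length - 2 * k) + 1 := by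
          simp only [List.length_cons]; omega
        rw [e, List.drop_succ_cons]
        obtain ⟨F, hF, hc⟩ := h
        have hmax : ∀ x ∈ (rest : Multiset ℤ), x ≤ o := by
          intro x hx
          exact (List.pairwise_cons.1 hp).1 x (by simpa using hx)
        rw [← cons_coe] at hF
        obtain ⟨F', hF', hc'⟩ := exch_obj hmax hF (by rw [hc]; simpa using hk)
        exact trim_obj bins k rest (List.pairwise_cons.1 hp).2 ⟨F', hF', hc'.trans hc⟩
      · have e : (o :: rest).length - 2 * k = 0 := by
          simp only [List.length_cons]; omega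
        rw [e, List.drop_zero]
        exact h

/-- Iterated bin exchange on a list sorted in increasing order. -/
theorem trim_bin (objs : Multiset ℤ) (k : ℕ) : ∀ L : List ℤ, L.Pairwise (· ≤ ·) →
    (∃ F, Valid (L : Multiset ℤ) objs F ∧ card F = k) →
    ∃ F, Valid ((L.drop (L.length - k) : List ℤ) : Multiset ℤ) objs F ∧ card F = k
  | [], _, h => by simpa using h
  | b :: rest, hp, h => by
      by_cases hk : k ≤ rest.length
      · have e : (b :: rest).length - k = (rest.length - k) + 1 := by
          simp only [List.length_cons]; omega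
        rw [e, List.drop_succ_cons]
        obtain ⟨F, hF, hc⟩ := h
        have hmin : ∀ x ∈ (rest : Multiset ℤ), b ≤ x := by
          intro x hx
          exact (List.pairwise_cons.1 hp).1 x (by simpa using hx)
        rw [← cons_coe] at hF
        obtain ⟨F', hF', hc'⟩ := exch_bin hmin hF (by rw [hc]; simpa using hk)
        exact trim_bin objs k rest (List.pairwise_cons.1 hp).2 ⟨F', hF', hc'.trans hc⟩
      · have e : (b :: rest).length - k = 0 := by
          simp only [List.length_cons]; omega
        rw [e, List.drop_zero]
        exact h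

/-- Exhaustive search: every bin of the list receives a pair of objects. -/
def perfect : List ℤ → List ℤ → Bool
  | [], _ => true
  | b :: bs, objs =>
      objs.dedup.any fun x =>
        (objs.erase x).dedup.any fun y =>
          decide (y ≤ x) && (decide (x + y ≤ b) && perfect bs ((objs.erase x).erase y))

theorem perfect_sound : ∀ (bs objs : List ℤ) (F : Multiset (ℤ × ℤ × ℤ)),
    Valid (bs : Multiset ℤ) (objs : Multiset ℤ) F → card F = bs.length → perfect bs objs = true
  | [], _, _, _, _ => rfl
  | b :: bs, objs, F, hF, hc => by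
      have hall : F.map (fun t => t.1) = ((b :: bs : List ℤ) : Multiset ℤ) :=
        eq_of_le_of_card_le hF.1 (by simp [hc])
      have hb : b ∈ F.map (fun t => t.1) := by rw [hall]; simp
      obtain ⟨t, ht, htb⟩ := mem_map.1 hb
      obtain ⟨F₁, rfl⟩ := exists_cons_of_mem ht
      obtain ⟨b', x, y⟩ := t
      simp only at htb
      subst htb
      -- the main step, for a triple whose objects are ordered
      have key : ∀ x y : ℤ, y ≤ x → Valid ((b' :: bs : List ℤ) : Multiset ℤ) (objs : Multiset ℤ)
          ((b', x, y) ::ₘ F₁) → perfect (b' :: bs) objs = true := by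
        intro x y hyx hV
        obtain ⟨h1, h2, h3⟩ := hV
        have h2' : x ::ₘ (y ::ₘ (F₁.map (fun t => t.2.1) + F₁.map (fun t => t.2.2)))
            ≤ (objs : Multiset ℤ) := by
          have e : map (fun t : ℤ × ℤ × ℤ => t.2.1) ((b', x, y) ::ₘ F₁)
              + map (fun t : ℤ × ℤ × ℤ => t.2.2) ((b', x, y) ::ₘ F₁)
              = x ::ₘ (y ::ₘ (F₁.map (fun t => t.2.1) + F₁.map (fun t => t.2.2))) := by
            simp only [map_cons, cons_add, add_cons]
            exact cons_swap _ _ _
          rw [← e]; exact h2
        have hx : x ∈ objs := by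
          have := mem_of_le h2' (mem_cons_self _ _)
          simpa using this
        have h3' : y ::ₘ (F₁.map (fun t => t.2.1) + F₁.map (fun t => t.2.2))
            ≤ ((objs.erase x : List ℤ) : Multiset ℤ) := by
          have := erase_le_erase x h2'
          rwa [erase_cons_head, coe_erase] at this
        have hy : y ∈ objs.erase x := by
          have := mem_of_le h3' (mem_cons_self _ _)
          simpa using this
        have h4 : F₁.map (fun t => t.2.1) + F₁.map (fun t => t.2.2)
            ≤ (((objs.erase x).erase y : List ℤ) : Multiset ℤ) := by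
          have := erase_le_erase y h3'
          rwa [erase_cons_head, coe_erase] at this
        have hbins : F₁.map (fun t => t.1) ≤ (bs : Multiset ℤ) := by
          have : b' ::ₘ F₁.map (fun t => t.1) ≤ b' ::ₘ (bs : Multiset ℤ) := by
            rw [cons_coe]; simpa using h1
          exact (cons_le_cons_iff b').1 this
        have hrec : perfect bs ((objs.erase x).erase y) = true :=
          perfect_sound bs _ F₁ ⟨hbins, h4, fun t ht => h3 t (mem_cons_of_mem ht)⟩
            (by simpa using hc)
        have hfit : x + y ≤ b' := h3 (b', x, y) (mem_cons_self _ _)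
        simp only [perfect, List.any_eq_true, Bool.and_eq_true, decide_eq_true_eq]
        exact ⟨x, List.mem_dedup.2 hx, y, List.mem_dedup.2 hy, hyx, hfit, hrec⟩
      rcases le_total y x with hyx | hxy
      · exact key x y hyx hF
      · exact key y x hxy hF.swap

/-- The certificate: `true` guarantees that no valid family has more than `k` triples. -/
def pairCheck (bins objs : List ℤ) (k : ℕ) : Bool :=
  !(perfect ((bins.insertionSort (· ≤ ·)).drop (bins.length - (k + 1)))
      ((objs.insertionSort (· ≥ ·)).drop (objs.length - 2 * (k + 1))))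

theorem pair_bound_multiset (bins objs : List ℤ) (k : ℕ) (h : pairCheck bins objs k = true)
    (F : Multiset (ℤ × ℤ × ℤ)) (hF : Valid (bins : Multiset ℤ) (objs : Multiset ℤ) F) :
    card F ≤ k := by
  by_contra hlt
  have hlt : k + 1 ≤ card F := by omega
  -- a subfamily with exactly `k + 1` triples
  obtain ⟨F₀, hF₀, hc₀⟩ : ∃ F₀ ≤ F, card F₀ = k + 1 := by
    induction F using Quotient.inductionOn with
    | _ l =>
      refine ⟨((l.take (k + 1) : List _) : Multiset _), coe_le.2 (List.take_sublist _ _).subperm, ?_⟩
      have : k + 1 ≤ l.length := by simpa using hlt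
      simp [this]
  have hV := hF.mono hF₀
  set bs := bins.insertionSort (· ≤ ·) with hbs
  set os := objs.insertionSort (· ≥ ·) with hos
  have ebs : (bs : Multiset ℤ) = (bins : Multiset ℤ) :=
    Quotient.sound (List.perm_insertionSort _ _)
  have eos : (os : Multiset ℤ) = (objs : Multiset ℤ) :=
    Quotient.sound (List.perm_insertionSort _ _)
  have hlb : bs.length = bins.length := (List.perm_insertionSort _ _).length_eq
  have hlo : os.length = objs.length := (List.perm_insertionSort _ _).length_eq
  have hcb : k + 1 ≤ bs.length := by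
    have := card_le_card hV.1
    rw [card_map, hc₀, ← ebs] at this
    simpa using this
  rw [← ebs, ← eos] at hV
  obtain ⟨F₁, hV₁, hc₁⟩ := trim_obj (bs : Multiset ℤ) (k + 1) os
    (List.pairwise_insertionSort _ _) ⟨F₀, hV, hc₀⟩
  obtain ⟨F₂, hV₂, hc₂⟩ := trim_bin _ (k + 1) bs
    (List.pairwise_insertionSort _ _) ⟨F₁, hV₁, hc₁⟩
  have := perfect_sound _ _ F₂ hV₂ (by rw [hc₂, List.length_drop]; omega)
  unfold pairCheck at h
  rw [← hbs, ← hos, ← hlb, ← hlo, this] at h
  simp at h

/-- List form of the bound, for families given as lists of `(bin, object, object)` triples. -/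
theorem pair_bound (bins objs : List ℤ) (k : ℕ) (h : pairCheck bins objs k = true)
    (F : List (ℤ × ℤ × ℤ))
    (hb : ((F.map fun t => t.1 : List ℤ) : Multiset ℤ) ≤ (bins : Multiset ℤ))
    (ho : ((F.flatMap fun t => [t.2.1, t.2.2] : List ℤ) : Multiset ℤ) ≤ (objs : Multiset ℤ))
    (hfit : ∀ t ∈ F, t.2.1 + t.2.2 ≤ t.1) : F.length ≤ k := by
  have hperm : ∀ G : List (ℤ × ℤ × ℤ),
      (((G.map fun t => t.2.1) ++ (G.map fun t => t.2.2) : List ℤ) : Multiset ℤ)
        = ((G.flatMap fun t => [t.2.1, t.2.2] : List ℤ) : Multiset ℤ) := by
    intro G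
    induction G with
    | nil => rfl
    | cons t G ih =>
      simp only [List.map_cons, List.flatMap_cons, List.cons_append, List.nil_append,
        ← cons_coe]
      rw [← ih, ← coe_add, ← coe_add, ← cons_coe, add_cons]
  have hV : Valid (bins : Multiset ℤ) (objs : Multiset ℤ) (F : Multiset (ℤ × ℤ × ℤ)) := by
    refine ⟨by simpa using hb, ?_, fun t ht => hfit t (by simpa using ht)⟩
    rw [← hperm] at ho
    simpa using ho
  simpa using pair_bound_multiset bins objs k h _ hV

/-! ### A faster search: the largest object goes first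

In a perfect pairing (every bin and every object used) the largest object `x` sits in some
bin `b`, and by an exchange argument its partner may be taken to be the largest remaining
object `y` with `x + y ≤ b`.  So it suffices to branch over the bin of the largest object. -/

/-- Perfect families: every bin and every object is used. -/
def Perf (bins objs : Multiset ℤ) (F : Multiset (ℤ × ℤ × ℤ)) : Prop :=
  F.map (fun t => t.1) = bins ∧
  F.map (fun t => t.2.1) + F.map (fun t => t.2.2) = objs ∧
  ∀ t ∈ F, t.2.1 + t.2.2 ≤ t.1

theorem Perf.swap {bins objs : Multiset ℤ} {b x y : ℤ} {F : Multiset (ℤ × ℤ × ℤ)}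
    (h : Perf bins objs ((b, x, y) ::ₘ F)) : Perf bins objs ((b, y, x) ::ₘ F) := by
  obtain ⟨h1, h2, h3⟩ := h
  refine ⟨by simpa using h1, ?_, ?_⟩
  · rw [← h2]
    simp only [map_cons, cons_add, add_cons]
    exact cons_swap _ _ _
  · intro t ht
    rcases mem_cons.1 ht with rfl | ht
    · have := h3 (b, x, y) (mem_cons_self _ _)
      simp only at this ⊢
      omega
    · exact h3 t (mem_cons_of_mem ht)

/-- Largest-object-first search; `objs` is expected in decreasing order and the first
argument is the number of bins still to be filled. -/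
def lsearch : ℕ → List ℤ → List ℤ → Bool
  | 0, _, _ => true
  | _ + 1, _, [] => false
  | n + 1, bins, x :: rest =>
      bins.dedup.any fun b =>
        match rest.find? (fun y => decide (x + y ≤ b)) with
        | none => false
        | some y => lsearch n (bins.erase b) (rest.erase y)

theorem lsearch_sound : ∀ (n : ℕ) (bins objs : List ℤ) (F : Multiset (ℤ × ℤ × ℤ)),
    bins.length = n → objs.Pairwise (· ≥ ·) →
    Perf (bins : Multiset ℤ) (objs : Multiset ℤ) F → lsearch n bins objs = true
  | 0, _, _, _, _, _, _ => rfl
  | n + 1, bins, [], F, hlen, _, hF => by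
      exfalso
      obtain ⟨h1, h2, -⟩ := hF
      have hc : card F = n + 1 := by
        have := congrArg card h1
        simpa [hlen] using this
      have := congrArg card h2
      simp [hc] at this
  | n + 1, bins, x :: rest, F, hlen, hsort, hF => by
      have hx : x ∈ F.map (fun t => t.2.1) + F.map (fun t => t.2.2) := by
        rw [hF.2.1]; simp
      -- the main step, for a family in which `x` is the first object of a triple
      have key : ∀ (b y' : ℤ) (F₁ : Multiset (ℤ × ℤ × ℤ)),
          Perf (bins : Multiset ℤ) ((x :: rest : List ℤ) : Multiset ℤ) ((b, x, y') ::ₘ F₁) →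
          lsearch (n + 1) bins (x :: rest) = true := by
        intro b y' F₁ hP
        obtain ⟨h1, h2, h3⟩ := hP
        have hb : b ∈ bins := by
          have : b ∈ ((bins : List ℤ) : Multiset ℤ) := by rw [← h1]; simp
          simpa using this
        have hbins : F₁.map (fun t => t.1) = ((bins.erase b : List ℤ) : Multiset ℤ) := by
          rw [← coe_erase, ← h1]; simp
        have hfit : x + y' ≤ b := h3 (b, x, y') (mem_cons_self _ _)
        have hrest : y' ::ₘ (F₁.map (fun t => t.2.1) + F₁.map (fun t => t.2.2))
            = (rest : Multiset ℤ) := by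
          have e : map (fun t : ℤ × ℤ × ℤ => t.2.1) ((b, x, y') ::ₘ F₁)
              + map (fun t : ℤ × ℤ × ℤ => t.2.2) ((b, x, y') ::ₘ F₁)
              = x ::ₘ (y' ::ₘ (F₁.map (fun t => t.2.1) + F₁.map (fun t => t.2.2))) := by
            simp only [map_cons, cons_add, add_cons]
            exact cons_swap _ _ _
          rw [e, ← cons_coe] at h2
          exact (cons_inj_right x).1 h2
        have hy'mem : y' ∈ rest := by
          have : y' ∈ (rest : Multiset ℤ) := by rw [← hrest]; exact mem_cons_self _ _
          simpa using this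
        -- the partner chosen by the search
        obtain ⟨y, hy⟩ : ∃ y, rest.find? (fun y => decide (x + y ≤ b)) = some y := by
          cases hfind : rest.find? (fun y => decide (x + y ≤ b)) with
          | none =>
            have := List.find?_eq_none.1 hfind y' hy'mem
            simp [hfit] at this
          | some y => exact ⟨y, rfl⟩
        have hyspec := List.find?_eq_some_iff_append.1 hy
        obtain ⟨hyfit, as, bs, hsplit, has⟩ := hyspec
        have hyfit : x + y ≤ b := by simpa using hyfit
        have hymem : y ∈ rest := by rw [hsplit]; simp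
        have hyge : y' ≤ y := by
          have hy'2 : y' ∈ as ++ y :: bs := hsplit ▸ hy'mem
          rcases List.mem_append.1 hy'2 with h | h
          · have := has y' h
            simp [hfit] at this
          · rcases List.mem_cons.1 h with h | h
            · exact le_of_eq h
            · have hp : (as ++ y :: bs).Pairwise (· ≥ ·) :=
                hsplit ▸ (List.pairwise_cons.1 hsort).2
              have hp2 := (List.pairwise_append.1 hp).2.1
              exact (List.pairwise_cons.1 hp2).1 y' h
        -- a perfect family for the remaining bins and objects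
        have hexch : ∃ F₁', Perf ((bins.erase b : List ℤ) : Multiset ℤ)
            ((rest.erase y : List ℤ) : Multiset ℤ) F₁' := by
          by_cases hyy : y = y'
          · refine ⟨F₁, hbins, ?_, fun t ht => h3 t (mem_cons_of_mem ht)⟩
            rw [← coe_erase, ← hrest, hyy, erase_cons_head]
          · have hyin : y ∈ F₁.map (fun t => t.2.1) + F₁.map (fun t => t.2.2) := by
              have : y ∈ (rest : Multiset ℤ) := by simpa using hymem
              rw [← hrest] at this
              rcases mem_cons.1 this with h | h
              · exact absurd h hyy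
              · exact h
            -- reduce to the case where `y` is the first object of its triple
            have key2 : ∀ (b₂ w : ℤ) (F₂ : Multiset (ℤ × ℤ × ℤ)),
                F₂.map (fun t => t.1) + {b₂} = ((bins.erase b : List ℤ) : Multiset ℤ) →
                y' ::ₘ (y ::ₘ (w ::ₘ (F₂.map (fun t => t.2.1) + F₂.map (fun t => t.2.2))))
                  = (rest : Multiset ℤ) →
                y + w ≤ b₂ → (∀ t ∈ F₂, t.2.1 + t.2.2 ≤ t.1) →
                ∃ F₁', Perf ((bins.erase b : List ℤ) : Multiset ℤ)
                  ((rest.erase y : List ℤ) : Multiset ℤ) F₁' := by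
              intro b₂ w F₂ hb2 hr2 hfit2 hF2
              refine ⟨(b₂, y', w) ::ₘ F₂, ?_, ?_, ?_⟩
              · rw [← hb2]; simp [add_comm]
              · rw [← coe_erase, ← hr2, cons_swap y' y, erase_cons_head]
                simp only [map_cons, cons_add, add_cons]
                exact cons_swap _ _ _
              · intro t ht
                rcases mem_cons.1 ht with rfl | ht
                · simp only
                  omega
                · exact hF2 t ht
            rcases mem_add.1 hyin with h | h
            · obtain ⟨t, ht, hty⟩ := mem_map.1 h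
              obtain ⟨F₂, rfl⟩ := exists_cons_of_mem ht
              obtain ⟨b₂, u, w⟩ := t
              simp only at hty
              subst hty
              refine key2 b₂ w F₂ ?_ ?_ ?_ ?_
              · rw [← hbins]; simp [add_comm]
              · rw [← hrest]
                simp only [map_cons, cons_add, add_cons]
                congr 1
                exact cons_swap _ _ _
              · exact h3 (b₂, u, w) (mem_cons_of_mem (mem_cons_self _ _))
              · intro t ht
                exact h3 t (mem_cons_of_mem (mem_cons_of_mem ht))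
            · obtain ⟨t, ht, hty⟩ := mem_map.1 h
              obtain ⟨F₂, rfl⟩ := exists_cons_of_mem ht
              obtain ⟨b₂, w, u⟩ := t
              simp only at hty
              subst hty
              refine key2 b₂ w F₂ ?_ ?_ ?_ ?_
              · rw [← hbins]; simp [add_comm]
              · rw [← hrest]
                simp only [map_cons, cons_add, add_cons]
              · have := h3 (b₂, w, u) (mem_cons_of_mem (mem_cons_self _ _))
                simp only at this
                omega
              · intro t ht
                exact h3 t (mem_cons_of_mem (mem_cons_of_mem ht))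
        obtain ⟨F₁', hF₁'⟩ := hexch
        have hlen' : (bins.erase b).length = n := by
          rw [List.length_erase_of_mem hb, hlen]; rfl
        have hsort' : (rest.erase y).Pairwise (· ≥ ·) :=
          ((List.pairwise_cons.1 hsort).2).sublist (List.erase_sublist ..)
        have hrec := lsearch_sound n (bins.erase b) (rest.erase y) F₁' hlen' hsort' hF₁'
        simp only [lsearch, List.any_eq_true]
        exact ⟨b, List.mem_dedup.2 hb, by rw [hy]; exact hrec⟩
      rcases mem_add.1 hx with h | h
      · obtain ⟨t, ht, htx⟩ := mem_map.1 h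
        obtain ⟨F₁, rfl⟩ := exists_cons_of_mem ht
        obtain ⟨b, u, y'⟩ := t
        simp only at htx
        subst htx
        exact key b y' F₁ hF
      · obtain ⟨t, ht, htx⟩ := mem_map.1 h
        obtain ⟨F₁, rfl⟩ := exists_cons_of_mem ht
        obtain ⟨b, y', u⟩ := t
        simp only at htx
        subst htx
        exact key b y' F₁ hF.swap

/-- The fast certificate: `true` guarantees that no valid family has more than `k` triples. -/
def pairCheckFast (bins objs : List ℤ) (k : ℕ) : Bool :=
  !(lsearch (k + 1) ((bins.insertionSort (· ≤ ·)).drop (bins.length - (k + 1)))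
      ((objs.insertionSort (· ≥ ·)).drop (objs.length - 2 * (k + 1))))

theorem pair_bound_fast_multiset (bins objs : List ℤ) (k : ℕ)
    (h : pairCheckFast bins objs k = true)
    (F : Multiset (ℤ × ℤ × ℤ)) (hF : Valid (bins : Multiset ℤ) (objs : Multiset ℤ) F) :
    card F ≤ k := by
  by_contra hlt
  have hlt : k + 1 ≤ card F := by omega
  obtain ⟨F₀, hF₀, hc₀⟩ : ∃ F₀ ≤ F, card F₀ = k + 1 := by
    induction F using Quotient.inductionOn with
    | _ l =>
      refine ⟨((l.take (k + 1) : List _) : Multiset _), coe_le.2 (List.take_sublist _ _).subperm, ?_⟩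
      have : k + 1 ≤ l.length := by simpa using hlt
      simp [this]
  have hV := hF.mono hF₀
  set bs := bins.insertionSort (· ≤ ·) with hbs
  set os := objs.insertionSort (· ≥ ·) with hos
  have ebs : (bs : Multiset ℤ) = (bins : Multiset ℤ) :=
    Quotient.sound (List.perm_insertionSort _ _)
  have eos : (os : Multiset ℤ) = (objs : Multiset ℤ) :=
    Quotient.sound (List.perm_insertionSort _ _)
  have hlb : bs.length = bins.length := (List.perm_insertionSort _ _).length_eq
  have hlo : os.length = objs.length := (List.perm_insertionSort _ _).length_eq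
  have hcb : k + 1 ≤ bs.length := by
    have := card_le_card hV.1
    rw [card_map, hc₀, ← ebs] at this
    simpa using this
  have hco : 2 * (k + 1) ≤ os.length := by
    have := card_le_card hV.2.1
    rw [card_add, card_map, card_map, hc₀, ← eos] at this
    simp only [coe_card] at this
    omega
  rw [← ebs, ← eos] at hV
  have hsorted : os.Pairwise (· ≥ ·) := List.pairwise_insertionSort _ _
  obtain ⟨F₁, hV₁, hc₁⟩ := trim_obj (bs : Multiset ℤ) (k + 1) os hsorted ⟨F₀, hV, hc₀⟩
  obtain ⟨F₂, hV₂, hc₂⟩ := trim_bin _ (k + 1) bs
    (List.pairwise_insertionSort _ _) ⟨F₁, hV₁, hc₁⟩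
  have hlenb : (bs.drop (bs.length - (k + 1))).length = k + 1 := by
    rw [List.length_drop]; omega
  have hleno : (os.drop (os.length - 2 * (k + 1))).length = 2 * (k + 1) := by
    rw [List.length_drop]; omega
  have hP : Perf ((bs.drop (bs.length - (k + 1)) : List ℤ) : Multiset ℤ)
      ((os.drop (os.length - 2 * (k + 1)) : List ℤ) : Multiset ℤ) F₂ := by
    refine ⟨eq_of_le_of_card_le hV₂.1 ?_, eq_of_le_of_card_le hV₂.2.1 ?_, hV₂.2.2⟩
    · simp [hc₂, hlenb]
    · simp only [coe_card, hleno, card_add, card_map, hc₂]
      omega
  have := lsearch_sound (k + 1) _ _ F₂ hlenb (hsorted.sublist (List.drop_sublist _ _)) hP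
  unfold pairCheckFast at h
  rw [← hbs, ← hos, ← hlb, ← hlo, this] at h
  simp at h

/-- List form of the fast bound. -/
theorem pair_bound_fast (bins objs : List ℤ) (k : ℕ) (h : pairCheckFast bins objs k = true)
    (F : List (ℤ × ℤ × ℤ))
    (hb : ((F.map fun t => t.1 : List ℤ) : Multiset ℤ) ≤ (bins : Multiset ℤ))
    (ho : ((F.flatMap fun t => [t.2.1, t.2.2] : List ℤ) : Multiset ℤ) ≤ (objs : Multiset ℤ))
    (hfit : ∀ t ∈ F, t.2.1 + t.2.2 ≤ t.1) : F.length ≤ k := by
  have hperm : ∀ G : List (ℤ × ℤ × ℤ),
      (((G.map fun t => t.2.1) ++ (G.map fun t => t.2.2) : List ℤ) : Multiset ℤ)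
        = ((G.flatMap fun t => [t.2.1, t.2.2] : List ℤ) : Multiset ℤ) := by
    intro G
    induction G with
    | nil => rfl
    | cons t G ih =>
      simp only [List.map_cons, List.flatMap_cons, List.cons_append, List.nil_append,
        ← cons_coe]
      rw [← ih, ← coe_add, ← coe_add, ← cons_coe, add_cons]
  have hV : Valid (bins : Multiset ℤ) (objs : Multiset ℤ) (F : Multiset (ℤ × ℤ × ℤ)) := by
    refine ⟨by simpa using hb, ?_, fun t ht => hfit t (by simpa using ht)⟩
    rw [← hperm] at ho
    simpa using ho
  simpa using pair_bound_fast_multiset bins objs k h _ hV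

end Vale.Agent.H57.PairBound
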